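import Vale.Agent.N162X.Defs
import Vale.Agent.N162.Low

/-!
# P162: the definitions of `N162X/Defs.lean` agree with those of `P162/Defs.lean`
-/

open Finset Equiv

namespace Vale.Agent.N162X

open Vale.Agent.P162 Vale.Agent.P162.H72

theorem newPos_iff (m : ℕ) (H : Finset ℕ) (σ : Perm (Fin (2 * m))) :
    (∀ x : Fin (2 * m), (σ x : ℕ) = newPos (2 * m) H x) ↔
      shuffle m (fun i => decide ((i : ℕ) ∈ H)) = σ := by
  have e : 2 * m / 2 = m := by omega
  have key : ∀ x : Fin (2 * m),
      (shuffle m (fun i => decide ((i : ℕ) ∈ H)) x : ℕ) = newPos (2 * m) H x := by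
    intro x
    unfold newPos
    rw [e]
    by_cases hx : (x : ℕ) < m
    · rw [shuffle_val_lt m _ x hx, if_pos hx]
      simp
    · rw [shuffle_val_ge m _ x hx, if_neg hx]
      simp
  constructor
  · intro h
    ext1 x
    exact Fin.ext ((key x).trans (h x).symm)
  · rintro rfl x
    exact key x

theorem existsUnique_perm (m : ℕ) (H : Finset ℕ) :
    ∃! σ : Perm (Fin (2 * m)), ∀ x : Fin (2 * m), (σ x : ℕ) = newPos (2 * m) H x :=
  ⟨_, (newPos_iff m H _).2 rfl, fun σ h => ((newPos_iff m H σ).1 h).symm⟩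

theorem coeff_q (m : ℕ) (σ : Perm (Fin (2 * m))) : (q (2 * m)).coeff σ = thorpLaw m σ := by
  have e : 2 * m / 2 = m := by omega
  unfold q thorpLaw
  rw [e]
  simp only [newPos_iff, MonoidAlgebra.coeff_sum, MonoidAlgebra.coeff_single, filter_eq,
    mem_univ, if_true, sum_singleton, Finsupp.finset_sum_apply, Finsupp.single_apply]
  rw [← sum_filter, sum_const, nsmul_eq_mul, mul_one_div]
  congr 2
  refine card_nbij' (fun H => fun i : Fin m => decide ((i : ℕ) ∈ H))
    (fun c => (univ.filter fun i => c i = true).map Fin.valEmbedding) ?_ ?_ ?_ ?_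
  · intro H hH
    simp only [coe_filter, mem_powerset, mem_univ, true_and, Set.mem_setOf_eq] at hH ⊢
    exact hH.2
  · intro c hc
    simp only [coe_filter, mem_powerset, mem_univ, true_and, Set.mem_setOf_eq] at hc ⊢
    refine ⟨fun k hk => ?_, ?_⟩
    · obtain ⟨i, -, rfl⟩ := mem_map.1 hk
      exact mem_range.2 i.2
    · rw [← hc]
      congr 1
      funext i
      simp [Fin.val_inj]
  · intro H hH
    simp only [coe_filter, mem_powerset, Set.mem_setOf_eq] at hH
    ext k
    simp only [mem_map, mem_filter, mem_univ, true_and, decide_eq_true_eq, Fin.valEmbedding_apply]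
    constructor
    · rintro ⟨i, hi, rfl⟩
      exact hi
    · intro hk
      exact ⟨⟨k, mem_range.1 (hH.1 hk)⟩, hk, rfl⟩
  · intro c _
    funext i
    simp [Fin.val_inj]

theorem coeff_pow (m t : ℕ) (g : Perm (Fin (2 * m))) :
    (q (2 * m) ^ t).coeff g = convPow (thorpLaw m) t g := by
  induction t generalizing g with
  | zero =>
    rw [pow_zero, MonoidAlgebra.one_def, MonoidAlgebra.coeff_single, Finsupp.single_apply, convPow]
    simp only [eq_comm]
  | succ t ih =>
    rw [pow_succ', MonoidAlgebra.coeff_mul_apply_left, Finsupp.sum_fintype _ _ (by simp), convPow,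
      conv]
    simp only [ih, coeff_q]

theorem dTV_eq (m t : ℕ) :
    dTV (2 * m) t = tv (convPow (thorpLaw m) t) (unif (Perm (Fin (2 * m)))) := by
  simp only [dTV, tv, unif, coeff_pow, Fintype.card_perm, Fintype.card_fin]

theorem tmix_eq (m : ℕ) : tmix (2 * m) = P162.tmix m := by
  simp only [tmix, P162.tmix, dTV_eq]

end Vale.Agent.N162X
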