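import Vale.Agent.N162.Low

/-!
# P162: tools for the lower bounds (uniform permutations, coins, central binomial coefficients)
-/

open Finset Equiv

namespace Vale.Agent.N162X

open Vale.Agent.P162 Vale.Agent.P162.H72 Vale.Agent.P162.N

section group
variable {G : Type*} [Fintype G]

/-- test functions give lower bounds for the total variation distance -/
theorem test_le_tv (μ ν : G → ℝ) (h : ∑ g, μ g = ∑ g, ν g) (F : G → ℝ) (h0 : ∀ g, 0 ≤ F g)
    (h1 : ∀ g, F g ≤ 1) : ∑ g, μ g * F g - ∑ g, ν g * F g ≤ tv μ ν := by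
  have h2 : ∀ g, μ g * F g - ν g * F g - (μ g - ν g) / 2 ≤ 1 / 2 * |μ g - ν g| := by
    intro g
    have a := h0 g
    have b := h1 g
    rcases le_total 0 (μ g - ν g) with h3 | h3
    · rw [abs_of_nonneg h3]; nlinarith
    · rw [abs_of_nonpos h3]; nlinarith
  have h3 := sum_le_sum fun g (_ : g ∈ (univ : Finset G)) => h2 g
  rw [sum_sub_distrib, sum_sub_distrib, ← sum_div, sum_sub_distrib, h, ← mul_sum] at h3
  rw [tv]
  linarith

theorem sum_eq_of_supp {μ : G → ℝ} (hμ : ∑ g, μ g = 1) {F : G → ℝ} {a : ℝ}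
    (h : ∀ g, μ g ≠ 0 → F g = a) : ∑ g, μ g * F g = a := by
  have : ∀ g, μ g * F g = μ g * a := by
    intro g
    by_cases hg : μ g = 0
    · simp [hg]
    · rw [h g hg]
  simp only [this]
  rw [← sum_mul, hμ, one_mul]

variable [Group G]

theorem sum_conv_mul (μ ν F : G → ℝ) :
    ∑ g, conv μ ν g * F g = ∑ h, μ h * ∑ k, ν k * F (h * k) := by
  simp only [conv, Finset.sum_mul, Finset.mul_sum]
  rw [sum_comm]
  refine sum_congr rfl fun h _ => ?_
  refine Fintype.sum_equiv (Equiv.mulLeft h⁻¹) _ _ fun g => ?_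
  simp [mul_assoc]

end group

theorem tv_anti (m : ℕ) {s t : ℕ} (h : s ≤ t) :
    tv (convPow (thorpLaw m) t) (unif (Perm (Fin (2 * m)))) ≤
      tv (convPow (thorpLaw m) s) (unif (Perm (Fin (2 * m)))) := by
  obtain ⟨k, rfl⟩ := Nat.exists_eq_add_of_le' h
  have := tv_conv_mono (ν := convPow (thorpLaw m) s) (convPow_nonneg m k)
    (sum_convPow _ (sum_thorpLaw m) k)
  rw [convPow_add]
  linarith

section unif
variable {X : Type} [Fintype X] [DecidableEq X]

theorem fibre_eq (E : Finset X) {B B' : Finset X} (h : B.card = B'.card) :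
    (univ.filter fun g : Perm X => E.map g.toEmbedding = B).card =
      (univ.filter fun g : Perm X => E.map g.toEmbedding = B').card := by
  obtain ⟨τ, rfl⟩ := Perm.exists_map_finset_eq B B' h
  refine Finset.card_equiv (Equiv.mulLeft τ) fun g => ?_
  simp only [mem_filter, mem_univ, true_and, Equiv.coe_mulLeft]
  have : E.map (τ * g).toEmbedding = (E.map g.toEmbedding).map τ.toEmbedding := by
    rw [map_map]; rfl
  rw [this, map_inj]

/-- the hypergeometric bound -/
theorem hyper (E T : Finset X) (k : ℕ) :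
    (univ.filter fun g : Perm X => (E.filter fun x => g x ∈ T).card = k).card *
        (Fintype.card X).choose E.card ≤
      (Fintype.card X).factorial * (T.card.choose k * Tᶜ.card.choose (E.card - k)) := by
  set f := (univ.filter fun g : Perm X => E.map g.toEmbedding = E).card with hf
  have h1 : (Fintype.card X).factorial = (Fintype.card X).choose E.card * f := by
    rw [← Fintype.card_perm, ← card_univ, card_eq_sum_card_fiberwise
      (f := fun g : Perm X => E.map g.toEmbedding) (t := powersetCard E.card univ)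
      (fun g _ => by simp)]
    rw [sum_congr rfl fun B hB => fibre_eq E (B' := E) (mem_powersetCard.1 hB).2]
    simp [hf]
  set P := (powersetCard E.card (univ : Finset X)).filter fun B => (B ∩ T).card = k with hP
  have h2 : (univ.filter fun g : Perm X => (E.filter fun x => g x ∈ T).card = k).card ≤
      P.card * f := by
    have h3 : ∀ g : Perm X, (E.filter fun x => g x ∈ T).card =
        (E.map g.toEmbedding ∩ T).card := by
      intro g
      rw [← filter_mem_eq_inter, filter_map, card_map]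
      rfl
    rw [card_eq_sum_card_fiberwise (f := fun g : Perm X => E.map g.toEmbedding) (t := P)
      (fun g hg => by
        simp only [coe_filter, mem_univ, true_and, Set.mem_ofPred_eq] at hg
        simp only [hP, coe_filter, mem_powersetCard, subset_univ, true_and, Set.mem_ofPred_eq,
          card_map]
        rw [← h3, hg])]
    rw [← smul_eq_mul, ← sum_const]
    refine sum_le_sum fun B hB => ?_
    rw [hf, fibre_eq E (B' := B) (mem_powersetCard.1 (mem_filter.1 hB).1).2.symm]
    exact card_le_card fun g hg => mem_filter.2 ⟨mem_univ _, (mem_filter.1 hg).2⟩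
  have h4 : P.card ≤ T.card.choose k * Tᶜ.card.choose (E.card - k) := by
    rw [← card_powersetCard, ← card_powersetCard, ← card_product]
    refine card_le_card_of_injOn (fun B => (B ∩ T, B \ T)) (fun B hB => ?_) fun B _ B' _ h => ?_
    · simp only [hP, coe_filter, mem_powersetCard, subset_univ, true_and,
        Set.mem_ofPred_eq] at hB
      have h5 := card_inter_add_card_sdiff B T
      simp only [coe_product, Set.mem_prod, mem_coe, mem_powersetCard]
      refine ⟨⟨inter_subset_right, hB.2⟩, fun x hx => mem_compl.2 (mem_sdiff.1 hx).2, by omega⟩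
    · simp only [Prod.mk.injEq] at h
      rw [← sdiff_union_inter B T, ← sdiff_union_inter B' T, h.1, h.2]
  calc _ ≤ P.card * f * (Fintype.card X).choose E.card := Nat.mul_le_mul_right _ h2
    _ = (Fintype.card X).factorial * P.card := by rw [h1]; ring
    _ ≤ _ := Nat.mul_le_mul_left _ h4

/-- the second moment of `∑ x, ε x * η (g x)` for a uniform permutation `g` -/
theorem second_moment {ε η : X → ℝ} (hε : ∀ x, ε x ^ 2 = 1) (hη : ∀ x, η x ^ 2 = 1)
    (hε0 : ∑ x, ε x = 0) (hη0 : ∑ x, η x = 0) (hX : 2 ≤ Fintype.card X) :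
    ∑ g, unif (Perm X) g * (∑ x, ε x * η (g x)) ^ 2 =
      (Fintype.card X : ℝ) ^ 2 / (Fintype.card X - 1) := by
  have hN : (2 : ℝ) ≤ Fintype.card X := by exact_mod_cast hX
  have hoff : ∀ φ : X → ℝ, (∀ x, φ x ^ 2 = 1) → ∑ x, φ x = 0 →
      ∑ p ∈ (univ : Finset X).offDiag, φ p.1 * φ p.2 = -(Fintype.card X : ℝ) := by
    intro φ h1 h2
    have h3 : ∑ p ∈ (univ : Finset X) ×ˢ (univ : Finset X), φ p.1 * φ p.2 = 0 := by
      rw [sum_product, ← sum_mul_sum, h2, zero_mul]
    rw [← diag_union_offDiag, sum_union (disjoint_diag_offDiag _), sum_diag] at h3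
    simp only [← sq, h1, sum_const, card_univ, nsmul_eq_mul, mul_one] at h3
    linarith
  have hQ : (((univ : Finset X).offDiag.card : ℕ) : ℝ) =
      Fintype.card X * (Fintype.card X - 1) := by
    rw [offDiag_card, card_univ, Nat.cast_sub (Nat.le_mul_self _)]
    push_cast
    ring
  have hpair : ∀ p ∈ (univ : Finset X).offDiag,
      ∑ g, unif (Perm X) g * (η (g p.1) * η (g p.2)) = -1 / (Fintype.card X - 1) := by
    intro p hp
    have hp' : p.1 ≠ p.2 := (mem_offDiag.1 hp).2.2
    rw [← sum_pairs p.1 p.2 hp']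
    have h4 : ∀ r ∈ (univ : Finset X).offDiag,
        ∑ g ∈ univ.filter fun g : Perm X => g p.1 = r.1 ∧ g p.2 = r.2,
          unif (Perm X) g * (η (g p.1) * η (g p.2)) =
        η r.1 * η r.2 / (Fintype.card X * (Fintype.card X - 1)) := by
      intro r hr
      have h5 := pair_unif p.1 p.2 hp' (mem_offDiag.1 hr).2.2
      rw [hQ] at h5
      rw [sum_congr rfl (g := fun g => unif (Perm X) g * (η r.1 * η r.2))
        (fun g hg => by rw [(mem_filter.1 hg).2.1, (mem_filter.1 hg).2.2]), ← sum_mul,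
        eq_div_iff (by apply mul_ne_zero <;> linarith)]
      linear_combination (η r.1 * η r.2) * h5
    rw [sum_congr rfl h4, ← sum_div, hoff η hη hη0]
    have : (Fintype.card X : ℝ) - 1 ≠ 0 := by linarith
    field_simp
  have hexp : ∀ g : Perm X, (∑ x, ε x * η (g x)) ^ 2 = Fintype.card X +
      ∑ p ∈ (univ : Finset X).offDiag, ε p.1 * ε p.2 * (η (g p.1) * η (g p.2)) := by
    intro g
    rw [sq, sum_mul_sum, ← sum_product', ← diag_union_offDiag,
      sum_union (disjoint_diag_offDiag _), sum_diag]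
    congr 1
    · simp only [← sq, mul_pow, hε, hη]
      simp
    · exact sum_congr rfl fun p _ => by ring
  simp only [hexp, mul_add, sum_add_distrib, mul_sum]
  rw [← sum_mul, sum_unif, sum_comm]
  rw [sum_congr rfl (g := fun p => ε p.1 * ε p.2 * (-1 / (Fintype.card X - 1)))
    (fun p hp => by rw [← hpair p hp, mul_sum]; exact sum_congr rfl fun g _ => by ring),
    ← sum_mul, hoff ε hε hε0]
  have : (Fintype.card X : ℝ) - 1 ≠ 0 := by linarith
  field_simp
  ring

end unif

/-- the sign of a coin -/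
def sg (b : Bool) : ℝ := if b then -1 else 1

theorem sum_coins_succ (m : ℕ) (F : ℝ → ℝ) (a : ℝ) :
    ∑ c : Fin (m + 1) → Bool, F (a + ∑ i, sg (c i)) =
      ∑ c : Fin m → Bool, F (a - 1 + ∑ i, sg (c i)) +
        ∑ c : Fin m → Bool, F (a + 1 + ∑ i, sg (c i)) := by
  rw [← (Fin.consEquiv fun _ : Fin (m + 1) => Bool).sum_comp, Fintype.sum_prod_type,
    Fintype.sum_bool]
  simp only [Fin.consEquiv_apply, Fin.sum_univ_succ, Fin.cons_zero, Fin.cons_succ, sg, if_true,
    Bool.false_eq_true, if_false, ← add_assoc, sub_eq_add_neg]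

theorem moment_two (m : ℕ) (a : ℝ) :
    ∑ c : Fin m → Bool, (a + ∑ i, sg (c i)) ^ 2 = 2 ^ m * (a ^ 2 + m) := by
  induction m generalizing a with
  | zero => simp
  | succ m ih =>
    rw [sum_coins_succ m (fun x => x ^ 2), ih, ih]
    push_cast
    ring

theorem moment_four (m : ℕ) (a : ℝ) :
    ∑ c : Fin m → Bool, (a + ∑ i, sg (c i)) ^ 4 =
      2 ^ m * (a ^ 4 + 6 * m * a ^ 2 + 3 * m ^ 2 - 2 * m) := by
  induction m generalizing a with
  | zero => simp
  | succ m ih =>
    rw [sum_coins_succ m (fun x => x ^ 4), ih, ih]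
    push_cast
    ring

theorem cb_succ (k : ℕ) : ((k : ℝ) + 1) * (k + 1).centralBinom = 2 * (2 * k + 1) * k.centralBinom := by
  exact_mod_cast Nat.succ_mul_centralBinom_succ k

theorem cb_upper (k : ℕ) : (3 * (k : ℝ) + 1) * (k.centralBinom : ℝ) ^ 2 ≤ 16 ^ k := by
  induction k with
  | zero => simp
  | succ k ih =>
    have h := cb_succ k
    have hk : (0 : ℝ) ≤ k := Nat.cast_nonneg k
    have h1 : ((k : ℝ) + 1) ^ 2 * (3 * k + 1) *
        ((3 * ((k : ℝ) + 1) + 1) * ((k + 1).centralBinom : ℝ) ^ 2) =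
        (3 * k + 4) * (4 * (2 * k + 1) ^ 2) * ((3 * k + 1) * (k.centralBinom : ℝ) ^ 2) := by
      have : ((k : ℝ) + 1) ^ 2 * ((k + 1).centralBinom : ℝ) ^ 2 =
          4 * (2 * k + 1) ^ 2 * (k.centralBinom : ℝ) ^ 2 := by
        rw [← mul_pow, h]; ring
      linear_combination (3 * k + 1) * (3 * k + 4) * this
    push_cast
    refine le_of_mul_le_mul_left ?_ (show (0 : ℝ) < (k + 1) ^ 2 * (3 * k + 1) by positivity)
    rw [h1, pow_succ (16 : ℝ)]
    have h2 : (3 * (k : ℝ) + 4) * (4 * (2 * k + 1) ^ 2) ≤ (k + 1) ^ 2 * (3 * k + 1) * 16 := by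
      nlinarith
    calc _ ≤ (3 * (k : ℝ) + 4) * (4 * (2 * k + 1) ^ 2) * 16 ^ k := by gcongr
      _ ≤ (k + 1) ^ 2 * (3 * k + 1) * 16 * 16 ^ k := by gcongr
      _ = _ := by ring

theorem cb_lower (j : ℕ) : (16 : ℝ) ^ (j + 1) ≤ 4 * (j + 1) * ((j + 1).centralBinom : ℝ) ^ 2 := by
  induction j with
  | zero => norm_num [Nat.centralBinom]
  | succ j ih =>
    have h := cb_succ (j + 1)
    have hk : (0 : ℝ) ≤ j := Nat.cast_nonneg j
    push_cast at h ⊢
    have h1 : ((j : ℝ) + 1 + 1) ^ 2 * ((j + 1 + 1).centralBinom : ℝ) ^ 2 =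
        4 * (2 * (j + 1) + 1) ^ 2 * ((j + 1).centralBinom : ℝ) ^ 2 := by
      rw [← mul_pow, h]; ring
    refine le_of_mul_le_mul_left ?_ (show (0 : ℝ) < (j + 1 + 1) * (j + 1) by positivity)
    have h2 : ((j : ℝ) + 1 + 1) * (j + 1) * 16 ≤ 4 * (2 * (j + 1) + 1) ^ 2 := by nlinarith
    calc ((j : ℝ) + 1 + 1) * (j + 1) * 16 ^ (j + 1 + 1)
        = (j + 1 + 1) * (j + 1) * 16 * 16 ^ (j + 1) := by ring
      _ ≤ 4 * (2 * (j + 1) + 1) ^ 2 * (4 * (j + 1) * ((j + 1).centralBinom : ℝ) ^ 2) := by gcongr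
      _ = _ := by linear_combination (-4 * (j + 1)) * h1

/-- the central hypergeometric probability is at most `√(8 k) / (3 k + 1)` -/
theorem cb_ratio {k : ℕ} (hk : 1 ≤ k) :
    ((k.centralBinom : ℝ) ^ 2 / (2 * k).centralBinom) ^ 2 ≤ 8 * k / (3 * k + 1) ^ 2 := by
  have h1 := cb_upper k
  have h2 := cb_lower (2 * k - 1)
  have e : 2 * k - 1 + 1 = 2 * k := by omega
  have e' : ((2 * k - 1 : ℕ) : ℝ) + 1 = 2 * k := by exact_mod_cast e
  rw [e, e', pow_mul', sq] at h2
  have h3 : (0 : ℝ) < (2 * k).centralBinom := by exact_mod_cast Nat.centralBinom_pos _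
  rw [div_pow, div_le_div_iff₀ (by positivity) (by positivity)]
  have h4 : ((3 * (k : ℝ) + 1) * (k.centralBinom : ℝ) ^ 2) ^ 2 ≤ (16 ^ k) ^ 2 := by gcongr
  nlinarith

end Vale.Agent.N162X
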