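import Mathlib

/-!
# P162: the Thorp shuffle in the group algebra `ℝ[S_n]`

The positions of the deck of `n` cards are `0, …, n - 1`, from the top.
-/

open Finset

namespace Vale.Agent.N162X

/-- The new position of the card at position `x` after one Thorp shuffle of `n` cards; `H` is the
set of the `i < n / 2` whose coin shows heads. The cards at `i` and `n / 2 + i` go to `2 * i` and
`2 * i + 1`, in this order for tails and in the other order for heads. -/
def newPos (n : ℕ) (H : Finset ℕ) (x : ℕ) : ℕ :=
  if x < n / 2 then 2 * x + (if x ∈ H then 1 else 0)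
  else 2 * (x - n / 2) + (if x - n / 2 ∈ H then 0 else 1)

/-- The law `q_n` of one shuffle, as an element of the group algebra of `S_n` (whose product is
the convolution): each of the `2 ^ (n / 2)` outcomes `H` of the coins puts the mass
`1 / 2 ^ (n / 2)` on the permutation `x ↦ newPos n H x`. -/
noncomputable def q (n : ℕ) : MonoidAlgebra ℝ (Equiv.Perm (Fin n)) :=
  ∑ H ∈ (range (n / 2)).powerset,
    ∑ σ : Equiv.Perm (Fin n) with ∀ x : Fin n, (σ x : ℕ) = newPos n H x,
      MonoidAlgebra.single σ (1 / 2 ^ (n / 2))

/-- `‖q_n^{*t} - U_n‖_TV`. -/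
noncomputable def dTV (n t : ℕ) : ℝ := 1 / 2 * ∑ g, |(q n ^ t).coeff g - 1 / n.factorial|

/-- `t_mix(n)`. -/
noncomputable def tmix (n : ℕ) : ℕ := sInf {t | dTV n t ≤ 1 / 4}

end Vale.Agent.N162X
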