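import Vale.Agent.N162X.Count

/-!
# P162: lower bounds for `2 ^ (e + 1)` cards at the times `2 e` and `2 e + 1`

After `e` shuffles the cards that started at even positions fill the top half.
-/

open Finset Equiv

namespace Vale.Agent.N162X

open Vale.Agent.P162 Vale.Agent.P162.H72 Vale.Agent.P162.N

theorem shuffle_half (m : ℕ) (c : Fin m → Bool) (y : Fin (2 * m)) :
    (shuffle m c y : ℕ) / 2 = y % m := by
  by_cases h : (y : ℕ) < m
  · rw [shuffle_val_lt m c y h, Nat.mod_eq_of_lt h]
    split <;> omega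
  · have h2 : (y : ℕ) - m < m := by omega
    rw [shuffle_val_ge m c y h, Nat.mod_eq_sub_mod (by omega), Nat.mod_eq_of_lt h2]
    split <;> omega

theorem exists_shuffle {m : ℕ} {σ : Perm (Fin (2 * m))} (h : thorpLaw m σ ≠ 0) :
    ∃ c, shuffle m c = σ := by
  by_contra h1
  apply h
  rw [thorpLaw, filter_false_of_mem fun c _ hc => h1 ⟨c, hc⟩]
  simp

theorem bit_of_supp (e : ℕ) : ∀ s, s ≤ e → ∀ g : Perm (Fin (2 * 2 ^ e)),
    convPow (thorpLaw (2 ^ e)) s g ≠ 0 → ∀ x, (g x : ℕ).testBit s = (x : ℕ).testBit 0 := by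
  intro s
  induction s with
  | zero =>
    intro _ g hg x
    have : g = 1 := by
      by_contra h
      exact hg (by simp [convPow, h])
    rw [this]
    rfl
  | succ s ih =>
    intro hs g hg x
    obtain ⟨h, -, hh⟩ := exists_ne_zero_of_sum_ne_zero (show ∑ h, thorpLaw (2 ^ e) h *
      convPow (thorpLaw (2 ^ e)) s (h⁻¹ * g) ≠ 0 from hg)
    obtain ⟨c, rfl⟩ := exists_shuffle (left_ne_zero_of_mul hh)
    have h1 := ih (by omega) _ (right_ne_zero_of_mul hh) x
    have h2 : g x = shuffle (2 ^ e) c (((shuffle (2 ^ e) c)⁻¹ * g) x) := by simp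
    rw [h2, Nat.testBit_succ, shuffle_half, Nat.testBit_mod_two_pow, h1]
    simp [show s < e by omega]

/-- After `e` shuffles of `2 ^ (e + 1)` cards a card is in the top half iff it started at an even
position. -/
theorem top_iff {e : ℕ} {g : Perm (Fin (2 * 2 ^ e))} (hg : convPow (thorpLaw (2 ^ e)) e g ≠ 0)
    (x : Fin (2 * 2 ^ e)) : (g x : ℕ) < 2 ^ e ↔ (x : ℕ) % 2 = 0 := by
  have h := bit_of_supp e e le_rfl g hg x
  rw [Nat.testBit_eq_decide_div_mod_eq, Nat.testBit_zero, decide_eq_decide] at h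
  have h1 : (g x : ℕ) / 2 ^ e < 2 := Nat.div_lt_of_lt_mul (by have := (g x).2; omega)
  rw [← Nat.div_eq_zero_iff_lt (by positivity)]
  generalize (g x : ℕ) / 2 ^ e = a at h h1
  omega

theorem card_fin (n : ℕ) (P : ℕ → Prop) [DecidablePred P] :
    (univ.filter fun x : Fin n => P x).card = ((range n).filter P).card := by
  rw [card_filter, card_filter, Fin.sum_univ_eq_sum_range (fun x => if P x then 1 else 0)]

theorem card_even (k : ℕ) : ((range (2 * k)).filter fun x => x % 2 = 0).card = k := by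
  induction k with
  | zero => simp
  | succ k ih =>
    rw [show 2 * (k + 1) = 2 * k + 1 + 1 by ring, range_add_one, range_add_one, filter_insert,
      filter_insert, if_neg (by omega), if_pos (by omega), card_insert_of_notMem (by simp), ih]

theorem card_top (m : ℕ) : (univ.filter fun y : Fin (2 * m) => (y : ℕ) < m).card = m := by
  rw [card_fin (2 * m) fun y => y < m]
  have : ((range (2 * m)).filter fun y => y < m) = range m := by
    ext y
    simp only [mem_filter, mem_range]
    omega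
  rw [this, card_range]

theorem card_top_even (k : ℕ) :
    (univ.filter fun y : Fin (2 * (2 * k)) => (y : ℕ) < 2 * k ∧ (y : ℕ) % 2 = 0).card = k := by
  rw [card_fin (2 * (2 * k)) fun y => y < 2 * k ∧ y % 2 = 0]
  have : ((range (2 * (2 * k))).filter fun y => y < 2 * k ∧ y % 2 = 0) =
      (range (2 * k)).filter fun y => y % 2 = 0 := by
    ext y
    simp only [mem_filter, mem_range]
    omega
  rw [this, card_even]

/-- The time `2 e`: exactly half of the cards from even positions are in the top half. -/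
theorem tv_two_mul (f : ℕ) : 1 - ((2 ^ f).centralBinom : ℝ) ^ 2 / (2 * 2 ^ f).centralBinom ≤
    tv (convPow (thorpLaw (2 ^ (f + 1))) (f + 1 + (f + 1)))
      (unif (Perm (Fin (2 * 2 ^ (f + 1))))) := by
  set e := f + 1 with he
  have hm : 2 ^ e = 2 * 2 ^ f := by rw [he, pow_succ']
  set E := univ.filter fun x : Fin (2 * 2 ^ e) => (x : ℕ) % 2 = 0 with hE
  set T := univ.filter fun y : Fin (2 * 2 ^ e) => (y : ℕ) < 2 ^ e with hT
  have hμ := sum_convPow _ (sum_thorpLaw (2 ^ e))
  have h1 := test_le_tv (convPow (thorpLaw (2 ^ e)) (e + e)) (unif _) (by rw [hμ, sum_unif])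
    (fun g => if (E.filter fun x => g x ∈ T).card = 2 ^ f then 1 else 0)
    (fun g => by positivity) (fun g => by split <;> norm_num)
  have h2 : ∑ g, convPow (thorpLaw (2 ^ e)) (e + e) g *
      (if (E.filter fun x => g x ∈ T).card = 2 ^ f then (1 : ℝ) else 0) = 1 := by
    rw [convPow_add, sum_conv_mul]
    refine sum_eq_of_supp (hμ e) fun h hh => sum_eq_of_supp (hμ e) fun g hg => if_pos ?_
    have h3 := card_top_even (2 ^ f)
    rw [← hm] at h3
    rw [← h3]
    refine card_equiv g fun x => ?_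
    simp only [hE, hT, mem_filter, mem_univ, true_and, Perm.mul_apply, top_iff hh, top_iff hg]
  have hEc : E.card = 2 ^ e := by rw [hE, card_fin _ fun x => x % 2 = 0, card_even]
  have hTc : T.card = 2 ^ e := card_top _
  have h4 := hyper E T (2 ^ f)
  have c1 : Nat.choose (2 ^ e) (2 ^ f) = Nat.centralBinom (2 ^ f) := by
    rw [hm, Nat.centralBinom_eq_two_mul_choose]
  have c2 : Nat.centralBinom (2 ^ e) = Nat.centralBinom (2 * 2 ^ f) := by rw [hm]
  rw [card_compl, hEc, hTc, Fintype.card_fin, show 2 * 2 ^ e - 2 ^ e = 2 ^ e by omega,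
    show 2 ^ e - 2 ^ f = 2 ^ f by omega, ← Nat.centralBinom_eq_two_mul_choose (2 ^ e),
    c1, c2] at h4
  have h5 : ∑ g, unif (Perm (Fin (2 * 2 ^ e))) g *
      (if (E.filter fun x => g x ∈ T).card = 2 ^ f then (1 : ℝ) else 0) ≤
      ((2 ^ f).centralBinom : ℝ) ^ 2 / (2 * 2 ^ f).centralBinom := by
    simp only [unif, Fintype.card_perm, Fintype.card_fin]
    rw [← mul_sum, sum_boole, one_div, inv_mul_eq_div, div_le_div_iff₀
      (by exact_mod_cast Nat.factorial_pos _) (by exact_mod_cast Nat.centralBinom_pos _), mul_comm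
      ((_ : ℝ) ^ 2), sq]
    exact_mod_cast h4
  linarith

/-- parity sign -/
noncomputable def ev (x : ℕ) : ℝ := if x % 2 = 0 then 1 else -1

/-- half sign -/
noncomputable def up (m y : ℕ) : ℝ := if y < m then 1 else -1

theorem sum_sign {n m : ℕ} (P : Fin n → Prop) [DecidablePred P] (hn : n = 2 * m)
    (h : (univ.filter P).card = m) : ∑ x, (if P x then (1 : ℝ) else -1) = 0 := by
  have h1 : ∀ x, (if P x then (1 : ℝ) else -1) = 2 * (if P x then 1 else 0) - 1 := by
    intro x
    split <;> norm_num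
  simp only [h1]
  rw [sum_sub_distrib, ← mul_sum, sum_boole, h, sum_const, card_univ, Fintype.card_fin, hn]
  simp

theorem sum_shuffle (m : ℕ) (c : Fin m → Bool) :
    ∑ y : Fin (2 * m), up m y * ev (shuffle m c y) = 2 * ∑ i, sg (c i) := by
  rw [← finProdFinEquiv.sum_comp, Fintype.sum_prod_type, Fin.sum_univ_two, two_mul (∑ i, _)]
  congr 1
  · refine sum_congr rfl fun i _ => ?_
    have h0 : ((finProdFinEquiv ((0 : Fin 2), i) : Fin (2 * m)) : ℕ) = i := by simp
    have h1 : ((finProdFinEquiv ((0 : Fin 2), i) : Fin (2 * m)) : ℕ) < m := by rw [h0]; exact i.2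
    rw [shuffle_val_lt m c _ h1, show (⟨_, h1⟩ : Fin m) = i from Fin.ext h0, up, if_pos h1]
    cases c i
    · simp [ev, sg]
    · simp [ev, sg]
  · refine sum_congr rfl fun i _ => ?_
    have h0 : ((finProdFinEquiv ((1 : Fin 2), i) : Fin (2 * m)) : ℕ) = i + m := by simp
    have h1 : ¬ ((finProdFinEquiv ((1 : Fin 2), i) : Fin (2 * m)) : ℕ) < m := by omega
    rw [shuffle_val_ge m c _ h1, show (⟨_, _⟩ : Fin m) = i from Fin.ext (by simp), up, if_neg h1]
    cases c i
    · simp [ev, sg]
    · simp [ev, sg]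

/-- The time `2 e + 1`: the variance of the number of cards from even positions in the top half is
twice too large. -/
theorem tv_two_mul_succ {e : ℕ} (he : 1 ≤ e) :
    1 / 18 ≤ tv (convPow (thorpLaw (2 ^ e)) (e + (1 + e))) (unif (Perm (Fin (2 * 2 ^ e)))) := by
  obtain ⟨m, hm⟩ : ∃ m : ℕ, m = 2 ^ e := ⟨_, rfl⟩
  have hm2 : 2 ≤ m := by
    rw [hm]
    exact le_self_pow₀ (by norm_num) (by omega)
  have hmr : (2 : ℝ) ≤ m := by exact_mod_cast hm2
  have hμ := sum_convPow _ (sum_thorpLaw (2 ^ e))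
  set Φ : ℝ → ℝ := fun s => min (s ^ 2) (12 * m) / (12 * m) with hΦ
  have h1 := test_le_tv (convPow (thorpLaw (2 ^ e)) (e + (1 + e))) (unif _)
    (by rw [hμ, sum_unif]) (fun g => Φ (∑ x : Fin (2 * 2 ^ e), ev x * up (2 ^ e) (g x)))
    (fun g => by simp only [hΦ]; positivity)
    (fun g => by simp only [hΦ]; exact div_le_one_of_le₀ (min_le_right _ _) (by positivity))
  have h2 : ∑ g, convPow (thorpLaw (2 ^ e)) (e + (1 + e)) g *
      Φ (∑ x : Fin (2 * 2 ^ e), ev x * up (2 ^ e) (g x)) =
      1 / 2 ^ m * ∑ c : Fin (2 ^ e) → Bool, Φ (2 * ∑ i, sg (c i)) := by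
    rw [convPow_add, sum_conv_mul]
    refine sum_eq_of_supp (hμ e) fun h hh => ?_
    rw [add_comm 1 e, convPow, sum_conv_mul]
    have h3 := sum_thorpLaw_smul (2 ^ e)
      fun σ => Φ (∑ y : Fin (2 * 2 ^ e), up (2 ^ e) y * ev (σ y))
    simp only [smul_eq_mul, sum_shuffle] at h3
    rw [hm, ← h3]
    refine sum_congr rfl fun σ _ => ?_
    congr 1
    refine sum_eq_of_supp (hμ e) fun g hg => ?_
    congr 1
    rw [← Equiv.sum_comp g fun y : Fin (2 * 2 ^ e) => up (2 ^ e) y * ev (σ y)]
    refine sum_congr rfl fun x _ => ?_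
    simp only [ev, up, Perm.mul_apply, top_iff hh, top_iff hg]
  have h4 : (9 * m + 2) / (36 * m) ≤
      (1 : ℝ) / 2 ^ m * ∑ c : Fin (2 ^ e) → Bool, Φ (2 * ∑ i, sg (c i)) := by
    rw [← hm]
    have a2 := moment_two m 0
    have a4 := moment_four m 0
    simp only [zero_add] at a2 a4
    have h5 : ∀ s : ℝ, s ^ 2 / (3 * m) - s ^ 4 / (36 * m ^ 2) ≤ Φ (2 * s) := by
      intro s
      simp only [hΦ]
      rw [le_div_iff₀ (by positivity)]
      have e1 : (s ^ 2 / (3 * m) - s ^ 4 / (36 * m ^ 2)) * (12 * m) =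
          4 * s ^ 2 - s ^ 4 / (3 * m) := by field_simp; ring
      rw [e1]
      refine le_min ?_ ?_
      · have : 0 ≤ s ^ 4 / (3 * m) := by positivity
        linarith
      · have : 4 * s ^ 2 - 12 * m ≤ s ^ 4 / (3 * m) := by
          rw [le_div_iff₀ (by positivity)]
          nlinarith [sq_nonneg (s ^ 2 - 6 * m)]
        linarith
    have h6 := sum_le_sum fun (c : Fin m → Bool) (_ : c ∈ univ) => h5 (∑ i, sg (c i))
    rw [sum_sub_distrib, ← sum_div, ← sum_div, a2, a4] at h6
    refine le_trans (le_of_eq ?_) (mul_le_mul_of_nonneg_left h6 (by positivity))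
    field_simp
    ring
  have h7 : ∑ g, unif (Perm (Fin (2 * 2 ^ e))) g *
      Φ (∑ x : Fin (2 * 2 ^ e), ev x * up (2 ^ e) (g x)) ≤ m / (3 * (2 * m - 1)) := by
    rw [← hm]
    have h8 := second_moment (X := Fin (2 * m)) (ε := fun x => ev x) (η := fun y => up m y)
      (fun x => by simp only [ev]; split <;> norm_num)
      (fun x => by simp only [up]; split <;> norm_num)
      (sum_sign _ rfl (by rw [card_fin _ fun x => x % 2 = 0, card_even]))
      (sum_sign _ rfl (card_top m)) (by rw [Fintype.card_fin]; omega)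
    rw [Fintype.card_fin] at h8
    calc _ ≤ ∑ g, unif (Perm (Fin (2 * m))) g *
          ((∑ x : Fin (2 * m), ev x * up m (g x)) ^ 2 / (12 * m)) := by
          refine sum_le_sum fun g _ => mul_le_mul_of_nonneg_left ?_ (by simp only [unif]; positivity)
          exact div_le_div_of_nonneg_right (min_le_left _ _) (by positivity)
      _ = _ := by
          simp only [← mul_div_assoc]
          rw [← sum_div, h8]
          have : (2 : ℝ) * m - 1 ≠ 0 := by linarith
          push_cast
          field_simp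
          ring
  have h9 : (1 : ℝ) / 18 ≤ (9 * m + 2) / (36 * m) - m / (3 * (2 * m - 1)) := by
    have : (0 : ℝ) < 2 * m - 1 := by linarith
    rw [div_sub_div _ _ (by positivity) (by positivity), div_le_div_iff₀ (by norm_num)
      (by positivity)]
    nlinarith
  linarith

end Vale.Agent.N162X
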