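import Vale.Agent.N162.Low

/-!
# P162: the upper bound with an explicit constant

The proofs are those of `H151.propF`, `N.ABq` and `N.even_quant`, with the explicit number of
rounds `66560 = 130 * 512` and `441 + 1` blocks of `⌊log₂ n⌋` shuffles in each round.
-/

open Finset Equiv Filter
open scoped Topology

namespace Vale.Agent.N162X

open Vale.Agent.P162 Vale.Agent.P162.N S2 S2.Abs H72 H491 H151

/-- The low levels. -/
theorem low_explicit : ∃ N₀ : ℕ, ∀ (α : Type) [Fintype α] [DecidableEq α] (q : Perm α → ℝ),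
    N₀ ≤ Fintype.card α → Data q (1 / 32) → ∀ k : ℕ,
      (k : ℝ) ≤ (Fintype.card α : ℝ) ^ (1 - (1 / 32 : ℝ) / 2) →
      trOn (op q ^ 66560) (LowS α k) ≤ (∑ g, q g) ^ 66560 + 2 / Fintype.card α := by
  set δ : ℝ := 1 / 32 / 2 with hδdef
  have hδ : 0 < δ := by positivity
  obtain ⟨m, hm⟩ : ∃ m : ℕ, m = 129 := ⟨_, rfl⟩
  obtain ⟨t, ht⟩ : ∃ t : ℕ, t = 512 := ⟨_, rfl⟩
  obtain ⟨R, hR⟩ : ∃ R : ℕ, R = 66560 := ⟨_, rfl⟩
  have hδt : 8 ≤ δ * t := by rw [hδdef, ht]; norm_num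
  obtain ⟨N₁, hN₁⟩ := exists_nat_ge ((4 : ℝ) ^ (2 / δ))
  obtain ⟨N₂, hN₂⟩ := exists_nat_ge ((2 * (2 * (m + 1) * 6 ^ m) : ℝ) ^ t)
  refine ⟨N₁ + N₂ + 2, ?_⟩
  intro α _ _ q hN hq k₀ hk₀
  rw [← hR]
  set N := Fintype.card α with hNdef
  have hN1 : 1 ≤ N := by omega
  have hNδ : 4 ≤ (N : ℝ) ^ (δ / 2) := by
    have h1 : (4 : ℝ) ^ (2 / δ) ≤ N := by
      refine hN₁.trans ?_
      exact_mod_cast (show N₁ ≤ N by omega)
    calc (4 : ℝ) = ((4 : ℝ) ^ (2 / δ)) ^ (δ / 2) := by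
          rw [← Real.rpow_mul (by norm_num)]
          have : 2 / δ * (δ / 2) = 1 := by field_simp
          rw [this, Real.rpow_one]
      _ ≤ (N : ℝ) ^ (δ / 2) := by
          apply Real.rpow_le_rpow (by positivity) h1 (by positivity)
  have hbig : (2 * (2 * (m + 1) * 6 ^ m) : ℝ) ^ t ≤ N := by
    refine hN₂.trans ?_
    exact_mod_cast (show N₂ ≤ N by omega)
  have hlevel : ∀ k, 1 ≤ k → k ≤ k₀ →
      trOn (op q ^ R) (Low (lth α) k ⊓ (Low (lth α) (k - 1))ᗮ) ≤ (1 / (N : ℝ)) ^ k := by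
    intro k hk1 hkk
    have hk : (k : ℝ) ≤ (N : ℝ) ^ (1 - δ) := by
      refine le_trans ?_ hk₀
      exact_mod_cast hkk
    obtain ⟨h4k, hnum⟩ := numeric hk1 hN1 hNδ hk hδt hbig
    refine le_trans ?_ hnum
    refine trOn_level_le hq.nonneg hq.sum_le hq.symm hq.class_fn hk1 h4k (m := 65)
      (p := (m + 1) * ((2 / (N : ℝ)) ^ k * (2 * 3 ^ k) ^ m)) (by positivity) ?_ t R (by omega)
      ⟨33280, by omega⟩
    intro K hK
    rw [show 65 + 65 = m + 1 by omega]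
    have h1 := H560.fix_convPow_le_rpow (κ := 1 / 32) (δ := δ) (m := m) (by rw [hm]; norm_num) hδ
      (by rw [hδdef, hm]; norm_num) hN1 hNδ (H560.law_of_data hq) K (by rw [hK]; exact hk)
    rw [hK] at h1
    exact h1
  have h1 := trOn_low_le hq.nonneg R k₀ hlevel
  have h2 : (1 : ℝ) / N ≤ 1 / 2 := by
    apply one_div_le_one_div_of_le (by norm_num)
    exact_mod_cast (show 2 ≤ N by omega)
  have h3 := sum_geom_le (x := 1 / (N : ℝ)) (by positivity) h2 k₀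
  rw [LowS_eq]
  refine h1.trans ?_
  have h4 : 2 * (1 / (N : ℝ)) = 2 / N := by ring
  linarith

/-- The abstract theorem. -/
theorem ab_explicit : ∃ N₀ : ℕ, ∀ (α : Type) [Fintype α] [DecidableEq α] (q : Perm α → ℝ),
    N₀ ≤ Fintype.card α → Data q (1 / 32) → ret q 66560 ≤ (∑ g, q g) ^ 66560 + 1 / 16 := by
  have hD := H372.propD
  obtain ⟨c, hc, k₁, hE⟩ := H816.propE
  obtain ⟨N₁, hF⟩ := low_explicit
  obtain ⟨κ, hκe⟩ : ∃ κ : ℝ, κ = 1 / 32 := ⟨_, rfl⟩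
  obtain ⟨R, hR⟩ : ∃ R : ℕ, R = 66560 := ⟨_, rfl⟩
  rw [← hκe, ← hR] at hF ⊢
  have hκ : 0 < κ := by rw [hκe]; norm_num
  have hκ' : κ ≤ 1 / 4 := by rw [hκe]; norm_num
  have hR1 : 8 / κ + 1 ≤ (R : ℝ) := by rw [hκe, hR]; norm_num
  have hcast := tendsto_natCast_atTop_atTop (R := ℝ)
  have ev1 : ∀ᶠ n : ℕ in atTop, (k₁ : ℝ) ≤ (n : ℝ) ^ (1 - κ / 2) :=
    ((tendsto_rpow_atTop (by linarith : 0 < 1 - κ / 2)).comp hcast).eventually_ge_atTop _
  have ev2 := exp_expo_le hc hκ hκ'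
  have ev3 : ∀ᶠ n : ℕ in atTop, 16 * (2 + 2 * Real.exp (c * Real.log 2)) ≤ (n : ℝ) :=
    hcast.eventually_ge_atTop _
  obtain ⟨N₀, hN₀⟩ := eventually_atTop.1 (ev1.and (ev2.and (ev3.and
    ((eventually_ge_atTop 1).and (eventually_ge_atTop N₁)))))
  refine ⟨N₀, fun α _ _ q hα hq => ?_⟩
  obtain ⟨g1, g2, g3, g4, g5⟩ := hN₀ _ hα
  set N := Fintype.card α with hN
  have hN1 : (1 : ℝ) ≤ N := by exact_mod_cast g4
  set k0 : ℕ := ⌊(N : ℝ) ^ (1 - κ / 2)⌋₊ with hk0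
  have hk1 : k₁ ≤ k0 := Nat.le_floor g1
  have hk2 : (k0 : ℝ) ≤ (N : ℝ) ^ (1 - κ / 2) := Nat.floor_le (by positivity)
  have hk3 : k0 ≤ N := by
    have h : (N : ℝ) ^ (1 - κ / 2) ≤ (N : ℝ) ^ (1 : ℝ) :=
      Real.rpow_le_rpow_of_exponent_le hN1 (by linarith)
    rw [Real.rpow_one] at h
    exact_mod_cast hk2.trans h
  have hlow := hF α q g5 hq k0 hk2
  set M : ℝ := (2 : ℝ) ^ (-(c * (k0 : ℝ))) with hM
  have hM0 : 0 ≤ M := by positivity
  have hM1 : M ≤ 1 := by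
    rw [hM]
    apply Real.rpow_le_one_of_one_le_of_nonpos (by norm_num)
    have : 0 ≤ c * (k0 : ℝ) := by positivity
    linarith
  have hR4 : 4 / (κ / 2) ≤ (R : ℝ) := by
    have e4 : 4 / (κ / 2) = 8 / κ := by field_simp; norm_num
    rw [e4]
    linarith
  have hhigh := hD α q hq.nonneg hq.symm hq.class_fn hq.psd (κ / 2) M R (LowS α k0)ᗮ
    (by positivity) (by linarith) hM0 hM1 hR4 g4
    (fun g f hf => lt_mem_LowS_orth g k0 hf) (fun g f hf => rt_mem_LowS_orth g k0 hf)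
    (fun f hf => hE α q κ hq k0 hk1 hk3 f hf)
  have hK1 : 1 ≤ ⌈(N : ℝ) ^ (κ / 2)⌉₊ := by
    have : 0 < (N : ℝ) ^ (κ / 2) := by positivity
    exact Nat.one_le_iff_ne_zero.2 (Nat.ceil_pos.2 this).ne'
  have hZ := (ZK_le hq g4 hK1).trans (log_bound hκ hκ' hN1)
  have hexp := exponent_le hc hκ hκ' hN1 hR1 hM (ZK_nonneg hq.nonneg _) hZ
  have hsum := trOn_add_trOn_orth (op q ^ R) (LowS α k0)
  have h16 : 2 / (N : ℝ) + 2 * Real.exp (c * Real.log 2) / N ≤ 1 / 16 := by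
    rw [← add_div, div_le_div_iff₀ (by linarith) (by norm_num)]
    linarith
  unfold ret
  rw [← hsum]
  linarith

/-- After `66560 * 442 * ⌊log₂ n⌋` shuffles the distance is at most `1 / 4`, for large even `n`. -/
theorem even_explicit : ∃ m₁ : ℕ, ∀ m, m₁ ≤ m →
    tv (convPow (thorpLaw m) (66560 * 442 * Nat.log 2 (2 * m))) (unif (Perm (Fin (2 * m)))) ≤
      1 / 4 := by
  obtain ⟨N₀, hN⟩ := ab_explicit
  obtain ⟨m₀, hm₀⟩ := H915.mixes
  obtain ⟨j, hj⟩ : ∃ j : ℕ, j = 440 := ⟨_, rfl⟩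
  obtain ⟨B, hB⟩ : ∃ B : ℕ, B = 2 ^ j := ⟨_, rfl⟩
  refine ⟨m₀ + 8 * N₀ + 128 + B, ?_⟩
  intro m hm
  apply tv_thorp_le_of_net
  intro F h0 h1
  have hω := partBq (m := m) (by omega)
  have hL440 : 440 ≤ Nat.log 2 (2 * m) := by
    have h : Nat.log 2 B ≤ Nat.log 2 (2 * m) := Nat.log_mono_right (by omega)
    rwa [hB, Nat.log_pow (by norm_num), hj] at h
  have hL1 : 2 * m ≤ 2 ^ (Nat.log 2 (2 * m) + 1) := (Nat.lt_pow_succ_log_self (by norm_num) _).le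
  obtain ⟨L, hL⟩ : ∃ L, L = Nat.log 2 (2 * m) := ⟨_, rfl⟩
  obtain ⟨N, hNdef⟩ : ∃ N, N = 2 * (7 * m / 8) := ⟨_, rfl⟩
  rw [← hL, ← hNdef] at hω
  rw [← hL] at hL440 hL1 ⊢
  have hmix := hm₀ m (by omega) _ hL1 (441 * L) (by omega)
  obtain ⟨ω, w0, w1, w2, w3, w4⟩ := hω
  have hcard : Fintype.card (Fin N) = N := Fintype.card_fin _
  have hret := hN (Fin N) _ (by rw [hcard]; omega) w3
  obtain ⟨ι⟩ : Nonempty (Fin N ↪ Fin (2 * m)) := by
    apply Function.Embedding.nonempty_of_card_le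
    rw [Fintype.card_fin, Fintype.card_fin]
    omega
  have m1 : (thorpNet m).Mixes (441 * L) (1 / (2 * m : ℝ) ^ 3) (Fin N) :=
    hmix _ (by rw [hcard]; omega)
  have m2 : (thorpNet m).Mixes (441 * L) (1 / (2 * m : ℝ) ^ 3) {x // x ∉ Set.range ι} := by
    apply hmix
    have h2 : Fintype.card {x // x ∉ Set.range ι} = 2 * m - N := by
      have h3 := Fintype.card_subtype_compl (fun x => x ∈ Set.range ι)
      have h4 : Fintype.card {x // x ∈ Set.range ι} = N := by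
        have := Set.card_range_of_injective ι.injective
        rw [hcard] at this
        exact this
      rw [h4] at h3
      simpa using h3
    rw [h2]
    omega
  have hm128 : (128 : ℝ) ≤ m := by exact_mod_cast (show 128 ≤ m by omega)
  have h := Net.run_le_quarter (thorpNet_per m) (one_dvd (441 * L)) (one_dvd L) ι m1 m2 w0 w1 w2
    (R := 66560) (by norm_num) hret ?_ ?_ F h0 h1
  · rwa [show 66560 * (441 * L + L) = 66560 * 442 * L by ring] at h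
  · have h4 : (256 : ℝ) ^ 3 ≤ (2 * m : ℝ) ^ 3 := pow_le_pow_left₀ (by norm_num) (by linarith) 3
    have h5 := one_div_le_one_div_of_le (by norm_num) h4
    push_cast
    linarith
  · have h4 : (1 / 6 : ℝ) ^ (L / 8) ≤ (1 / 6) ^ 8 :=
      pow_le_pow_of_le_one (by norm_num) (by norm_num) (by omega)
    have h5 := w4.trans h4
    push_cast
    linarith

end Vale.Agent.N162X
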