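import Vale.Agent.N162X.Bridge
import Vale.Agent.N162X.Low
import Vale.Agent.N162X.Up

/-!
# P162: the statements in terms of `dTV` and `tmix`
-/

open Finset Equiv

namespace Vale.Agent.N162X

open Vale.Agent.P162 Vale.Agent.P162.H72 Vale.Agent.P162.N

theorem exists_half {n : ℕ} (hn : Even n) (h2 : 2 ≤ n) : ∃ m, 1 ≤ m ∧ n = 2 * m := by
  obtain ⟨m, rfl⟩ := hn
  exact ⟨m, by omega, by ring⟩

theorem order_even : ∃ c C : ℝ, 0 < c ∧ 0 < C ∧ ∀ n : ℕ, Even n → 2 ≤ n →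
    IsLeast {t | dTV n t ≤ 1 / 4} (tmix n) ∧ c * Real.log n ≤ tmix n ∧
      tmix n ≤ C * Real.log n := by
  obtain ⟨c, C, hc, hC, h⟩ := order
  refine ⟨c, C, hc, hC, fun n hn h2 => ?_⟩
  obtain ⟨m, hm, rfl⟩ := exists_half hn h2
  simp only [dTV_eq, tmix_eq]
  exact h m hm

theorem dTV_tmix {n : ℕ} (hn : Even n) (h2 : 2 ≤ n) : dTV n (tmix n) ≤ 1 / 4 := by
  obtain ⟨c, C, -, -, h⟩ := order_even
  exact (h n hn h2).1.1

theorem lower_explicit {n : ℕ} (hn : Even n) (h2 : 2 ≤ n) :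
    2 * Real.logb 2 (n / Real.exp 1) ≤ tmix n := by
  have h1 := dTV_tmix hn h2
  obtain ⟨m, hm, rfl⟩ := exists_half hn h2
  generalize tmix (2 * m) = t at h1 ⊢
  rw [dTV_eq] at h1
  have h3 : (3 : ℝ) * (2 * m).factorial ≤ 4 * 2 ^ (m * t) := by
    exact_mod_cast factorial_le m t h1
  have h4 := Stirling.le_factorial_stirling (2 * m)
  have hn0 : (2 : ℝ) ≤ (2 * m : ℕ) := by exact_mod_cast h2
  have h5 : (2 : ℝ) ≤ √(2 * Real.pi * (2 * m : ℕ)) := by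
    apply Real.le_sqrt_of_sq_le
    nlinarith [Real.pi_gt_three]
  set a : ℝ := (2 * m : ℕ) / Real.exp 1 with ha
  have ha0 : 0 < a := by positivity
  have h6 : (a ^ 2) ^ m ≤ ((2 : ℝ) ^ t) ^ m := by
    rw [← pow_mul, ← pow_mul, mul_comm t m]
    have : 2 * a ^ (2 * m) ≤ √(2 * Real.pi * (2 * m : ℕ)) * a ^ (2 * m) := by gcongr
    have h7 : 0 < a ^ (2 * m) := by positivity
    linarith
  have h7 := Real.logb_le_logb_of_le (b := 2) (by norm_num) (by positivity)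
    (le_of_pow_le_pow_left₀ (by omega) (by positivity) h6)
  rw [Real.logb_pow, Real.logb_pow, Real.logb_self_eq_one (by norm_num)] at h7
  push_cast at h7
  linarith

theorem upper_explicit : ∃ n₀ : ℕ, ∀ n : ℕ, Even n → n₀ ≤ n →
    tmix n ≤ 3 * 10 ^ 7 * Real.logb 2 n := by
  obtain ⟨m₁, h⟩ := even_explicit
  refine ⟨2 * m₁ + 2, fun n hn h2 => ?_⟩
  obtain ⟨m, hm, rfl⟩ := exists_half hn (by omega)
  have h1 : tmix (2 * m) ≤ 66560 * 442 * Nat.log 2 (2 * m) := by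
    apply Nat.sInf_le
    rw [Set.mem_ofPred_eq, dTV_eq]
    exact h m (by omega)
  have h3 : (tmix (2 * m) : ℝ) ≤ 66560 * 442 * (Nat.log 2 (2 * m) : ℝ) := by exact_mod_cast h1
  have h4 : (Nat.log 2 (2 * m) : ℝ) ≤ Real.logb 2 (2 * m : ℕ) := Real.natLog_le_logb (2 * m) 2
  have h5 : (0 : ℝ) ≤ Nat.log 2 (2 * m) := Nat.cast_nonneg _
  linarith

/-- up to the time `2 d - 2` -/
theorem far {f t : ℕ} (ht : t ≤ f + 1 + (f + 1)) :
    1 - 2 / √(2 ^ (f + 2)) ≤ dTV (2 ^ (f + 2)) t ∧ 1 / 4 < dTV (2 ^ (f + 2)) t := by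
  have h1 := (tv_two_mul f).trans (tv_anti _ ht)
  rw [← dTV_eq, ← pow_succ' 2 (f + 1)] at h1
  have h2 := cb_ratio (k := 2 ^ f) Nat.one_le_two_pow
  set r : ℝ := ((2 ^ f).centralBinom : ℝ) ^ 2 / (2 * 2 ^ f).centralBinom with hr
  have hk : (1 : ℝ) ≤ 2 ^ f := one_le_pow₀ (by norm_num)
  push_cast at h2
  constructor
  · have h3 : r ≤ 2 / √(2 ^ (f + 2)) := by
      refine le_of_pow_le_pow_left₀ two_ne_zero (by positivity) (h2.trans ?_)
      rw [div_pow, Real.sq_sqrt (by positivity), div_le_div_iff₀ (by positivity) (by positivity),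
        pow_add]
      nlinarith
    linarith
  · have h3 : r < 3 / 4 := by
      refine lt_of_pow_lt_pow_left₀ 2 (by norm_num) (h2.trans_lt ?_)
      rw [div_lt_iff₀ (by positivity)]
      nlinarith
    linarith

theorem even_two_pow {d : ℕ} (hd : 1 ≤ d) : Even (2 ^ d) ∧ 2 ≤ 2 ^ d :=
  ⟨Nat.even_pow.2 ⟨even_two, by omega⟩, le_self_pow₀ (by norm_num) (by omega)⟩

theorem far_all {d t : ℕ} (ht : t + 2 ≤ 2 * d) : 1 - 2 / √(2 ^ d) ≤ dTV (2 ^ d) t := by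
  rcases Nat.lt_or_ge d 2 with h | h
  · obtain rfl : d = 1 := by omega
    have h1 : 0 ≤ dTV (2 ^ 1) t := by unfold dTV; positivity
    have h2 : 1 ≤ 2 / √((2 : ℝ) ^ 1) := by
      rw [le_div_iff₀ (by positivity), one_mul, Real.sqrt_le_left (by norm_num)]
      norm_num
    exact (sub_nonpos.2 h2).trans h1
  · obtain ⟨f, rfl⟩ := Nat.exists_eq_add_of_le' h
    exact (far (by omega)).1

theorem two_mul_le_tmix {d : ℕ} (hd : 1 ≤ d) : 2 * d ≤ tmix (2 ^ d) + 1 := by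
  have h1 := dTV_tmix (even_two_pow hd).1 (even_two_pow hd).2
  rcases Nat.lt_or_ge d 2 with h | h
  · obtain rfl : d = 1 := by omega
    have h2 := lower 0 (tmix (2 ^ 1)) (by rw [← dTV_eq]; exact h1)
    omega
  · obtain ⟨f, rfl⟩ := Nat.exists_eq_add_of_le' h
    by_contra h2
    exact absurd h1 (not_le.2 (far (by omega)).2)

theorem not_small {d t : ℕ} (hd : 2 ≤ d) (ht : t + 1 ≤ 2 * d) : 1 / 18 ≤ dTV (2 ^ d) t := by
  obtain ⟨e, rfl⟩ : ∃ e, d = e + 1 := ⟨d - 1, by omega⟩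
  rw [pow_succ', dTV_eq]
  exact (tv_two_mul_succ (by omega)).trans (tv_anti _ (by omega))

end Vale.Agent.N162X
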